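import Vale.Agent.P235.K5.H521.Fat
import Vale.Agent.P235.K5.H404.Core

/-!
# P235 [WAG], row [W-FAT]: two fat splits, without hypothesis (helper521)
-/

set_option autoImplicit false

namespace Vale.Agent.P235.K5.H521

open SimpleGraph Vale.Agent.P235.H134

theorem coreStmt : CoreStmt := fun T hs h01 h45 h26 h27 h36 h37 c6 c7 p2 p3 x fC fD fP fQ =>
  H404.core T hs h01 h45 h26 h27 h36 h37 c6 c7 p2 p3 x fC fD fP fQ

/-- **[W-FAT]** -/
theorem fat {V : Type} {G : SimpleGraph V} {A B : Fin 3 → Set V} (hM : Mod G A B) {i j : Fin 3}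
    {C D P Q : Set V} (hA : Split G (A i) C D) (hB : Split G (B j) P Q) (hC : Two G C B)
    (hD : Two G D B) (hP : Two G P A) (hQ : Two G Q A) :
    IsMinor (⊤ : SimpleGraph (Fin 5)) G ∨ V8Model G :=
  fat_fat coreStmt hM hA hB hC hD hP hQ

end Vale.Agent.P235.K5.H521
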