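import Vale.Agent.P235.K5.H521.FatFin
import Vale.Agent.P235.K5.W.Defs

/-!
# P235 [WAG], row [W-FAT]: `FFStmt` (helper521)
-/

set_option autoImplicit false

namespace Vale.Agent.P235.K5.H521

open SimpleGraph Vale.Agent.P235.H134 Vale.Agent.P235.H56

variable {V : Type} {G : SimpleGraph V}

/-- The eight parts. -/
theorem parts {A B : Fin 3 → Set V} (hM : Mod G A B) {i j : Fin 3}
    {C D P Q : Set V} (hA : Split G (A i) C D) (hB : Split G (B j) P Q) (hC : Two G C B)
    (hD : Two G D B) (hP : Two G P A) (hQ : Two G Q A) :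
    ∃ p : Fin 8 → Set V, (∀ a, (G.induce (p a)).Connected) ∧
      (∀ a b, a ≠ b → Disjoint (p a) (p b)) ∧ (∀ v, ∃ a, v ∈ p a) ∧
      ((HasV8 fun a b => Touch G (p a) (p b)) ∨ HasK5 fun a b => Touch G (p a) (p b)) := by
  have e1 : ∀ i : Fin 3, i ≠ i + 1 := by decide
  have e2 : ∀ i : Fin 3, i ≠ i + 2 := by decide
  have e3 : ∀ i : Fin 3, i + 1 ≠ i + 2 := by decide
  have sC : C ⊆ A i := by rw [hA.eq]; exact Set.subset_union_left
  have sD : D ⊆ A i := by rw [hA.eq]; exact Set.subset_union_right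
  have sP : P ⊆ B j := by rw [hB.eq]; exact Set.subset_union_left
  have sQ : Q ⊆ B j := by rw [hB.eq]; exact Set.subset_union_right
  have tCD : Touch G C D := touch_of_connected (by rw [← hA.eq]; exact hM.cA i)
    (nonempty_of_connected hA.cP) (nonempty_of_connected hA.cQ) hA.disj
  have tPQ : Touch G P Q := touch_of_connected (by rw [← hB.eq]; exact hM.cB j)
    (nonempty_of_connected hB.cP) (nonempty_of_connected hB.cQ) hB.disj
  let p : Fin 8 → Set V := ![C, D, A (i + 1), A (i + 2), P, Q, B (j + 1), B (j + 2)]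
  have hp : ∀ a, (G.induce (p a)).Connected := by
    intro a
    fin_cases a
    · exact hA.cP
    · exact hA.cQ
    · exact hM.cA _
    · exact hM.cA _
    · exact hB.cP
    · exact hB.cQ
    · exact hM.cB _
    · exact hM.cB _
  have d01 := hA.disj
  have d02 := (hM.dA _ _ (e1 i)).mono_left sC
  have d03 := (hM.dA _ _ (e2 i)).mono_left sC
  have d04 := (hM.dAB i j).mono sC sP
  have d05 := (hM.dAB i j).mono sC sQ
  have d06 := (hM.dAB i (j + 1)).mono_left sC
  have d07 := (hM.dAB i (j + 2)).mono_left sC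
  have d12 := (hM.dA _ _ (e1 i)).mono_left sD
  have d13 := (hM.dA _ _ (e2 i)).mono_left sD
  have d14 := (hM.dAB i j).mono sD sP
  have d15 := (hM.dAB i j).mono sD sQ
  have d16 := (hM.dAB i (j + 1)).mono_left sD
  have d17 := (hM.dAB i (j + 2)).mono_left sD
  have d23 := hM.dA _ _ (e3 i)
  have d24 := (hM.dAB (i + 1) j).mono_right sP
  have d25 := (hM.dAB (i + 1) j).mono_right sQ
  have d34 := (hM.dAB (i + 2) j).mono_right sP
  have d35 := (hM.dAB (i + 2) j).mono_right sQ
  have d45 := hB.disj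
  have d46 := (hM.dB _ _ (e1 j)).mono_left sP
  have d47 := (hM.dB _ _ (e2 j)).mono_left sP
  have d56 := (hM.dB _ _ (e1 j)).mono_left sQ
  have d57 := (hM.dB _ _ (e2 j)).mono_left sQ
  have d67 := hM.dB _ _ (e3 j)
  have hlt : ∀ a b : Fin 8, a < b → Disjoint (p a) (p b) := by
    intro a b hab
    fin_cases a <;> fin_cases b <;> first
      | exact absurd hab (by decide)
      | exact d01
      | exact d02
      | exact d03
      | exact d04
      | exact d05
      | exact d06
      | exact d07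
      | exact d12
      | exact d13
      | exact d14
      | exact d15
      | exact d16
      | exact d17
      | exact d23
      | exact d24
      | exact d25
      | exact hM.dAB _ _
      | exact d34
      | exact d35
      | exact d45
      | exact d46
      | exact d47
      | exact d56
      | exact d57
      | exact d67
  have hd : ∀ a b, a ≠ b → Disjoint (p a) (p b) := by
    intro a b hab
    rcases lt_or_gt_of_ne hab with h | h
    · exact hlt a b h
    · exact (hlt b a h).symm
  have hcov : ∀ v, ∃ a, v ∈ p a := by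
    have key : ∀ j k : Fin 3, k = j ∨ k = j + 1 ∨ k = j + 2 := by decide
    intro v
    rcases hM.cover v with ⟨k, hk⟩ | ⟨k, hk⟩
    · rcases key i k with rfl | rfl | rfl
      · rw [hA.eq] at hk
        rcases hk with hk | hk
        · exact ⟨0, hk⟩
        · exact ⟨1, hk⟩
      · exact ⟨2, hk⟩
      · exact ⟨3, hk⟩
    · rcases key j k with rfl | rfl | rfl
      · rw [hB.eq] at hk
        rcases hk with hk | hk
        · exact ⟨4, hk⟩
        · exact ⟨5, hk⟩
      · exact ⟨6, hk⟩
      · exact ⟨7, hk⟩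
  have tA : ∀ k, Touch G C (B k) ∨ Touch G D (B k) := by
    intro k
    have := hM.touch i k
    rwa [hA.eq, touch_union_left] at this
  have tB : ∀ k, Touch G P (A k) ∨ Touch G Q (A k) := by
    intro k
    have := (hM.touch k j).symm
    rwa [hB.eq, touch_union_left] at this
  have t4 : Touch G C P ∨ Touch G C Q ∨ Touch G D P ∨ Touch G D Q := by
    have := tA j
    rw [hB.eq, touch_union_right, touch_union_right] at this
    tauto
  exact ⟨p, hp, hd, hcov, coreStmt (fun a b => Touch G (p a) (p b)) (fun a b h => h.symm) tCD tPQ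
    (hM.touch _ _) (hM.touch _ _) (hM.touch _ _) (hM.touch _ _) (tA (j + 1)) (tA (j + 2))
    (tB (i + 1)) (tB (i + 2)) t4 (two_cases hB.eq hC) (two_cases hB.eq hD) (two_cases hA.eq hP)
    (two_cases hA.eq hQ)⟩

/-- The index function of a partition. -/
theorem exists_index {ι : Type} (p : ι → Set V) (hd : ∀ i j, i ≠ j → Disjoint (p i) (p j))
    (hc : ∀ v, ∃ i, v ∈ p i) : ∃ F : V → ι, ∀ v i, F v = i ↔ v ∈ p i := by
  choose F hF using hc
  refine ⟨F, fun v i => ⟨fun h => h ▸ hF v, fun h => ?_⟩⟩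
  by_contra hne
  exact Set.disjoint_left.1 (hd _ _ hne) (hF v) h

/-- The `K_5` constructor, spanning form. -/
theorem has_k5 {ι : Type} (p : ι → Set V) (hp : ∀ i, (G.induce (p i)).Connected)
    (hd : ∀ i j, i ≠ j → Disjoint (p i) (p j)) (hc : ∀ v, ∃ i, v ∈ p i)
    (h : HasK5 fun i j => Touch G (p i) (p j)) : W.Has W.KF G := by
  obtain ⟨F, hF⟩ := exists_index p hd hc
  obtain ⟨g, h1, h2⟩ := h
  have hne : ∀ c : Fin 5, ∃ i, g i = c := by
    intro c
    have : c ≠ c + 1 := by
      intro h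
      revert h
      revert c
      decide
    obtain ⟨i, _, hi, _, _⟩ := h2 c (c + 1) this
    exact ⟨i, hi⟩
  refine ⟨fun v => g (F v), ?_, ?_⟩
  · intro c
    have hs : {v | g (F v) = c} = {v | ∃ i ∈ {i | g i = c}, v ∈ p i} := by
      ext v
      constructor
      · intro h
        exact ⟨F v, h, (hF v (F v)).1 rfl⟩
      · rintro ⟨i, hi, hv⟩
        have := (hF v i).2 hv
        change g (F v) = c
        rw [this]
        exact hi
    rw [hs]
    refine connected_class p hp {i | g i = c} (hne c) ?_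
    intro i hi j hj hij
    exact h1 i j (by rw [show g i = c from hi, show g j = c from hj]) hij
  · intro c c' hcc
    have hcc' : c ≠ c' := hcc
    obtain ⟨i, j, hi, hj, x, hx, y, hy, e⟩ := h2 c c' hcc'
    refine ⟨x, y, ?_, ?_, e⟩
    · change g (F x) = c
      rw [(hF x i).2 hx, hi]
    · change g (F y) = c'
      rw [(hF y j).2 hy, hj]

/-- The `V_8` constructor, spanning form. -/
theorem has_v8 (p : Fin 8 → Set V) (hp : ∀ i, (G.induce (p i)).Connected)
    (hd : ∀ i j, i ≠ j → Disjoint (p i) (p j)) (hc : ∀ v, ∃ i, v ∈ p i)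
    (h : HasV8 fun i j => Touch G (p i) (p j)) : W.Has W.V8 G := by
  obtain ⟨F, hF⟩ := exists_index p hd hc
  obtain ⟨σ, h1⟩ := h
  have key : ∀ i j, Touch G (p (σ i)) (p (σ j)) → W.Tch G (fun v => σ.symm (F v)) i j := by
    rintro i j ⟨x, hx, y, hy, e⟩
    refine ⟨x, y, ?_, ?_, e⟩
    · change σ.symm (F x) = i
      rw [(hF x _).2 hx, Equiv.symm_apply_apply]
    · change σ.symm (F y) = j
      rw [(hF y _).2 hy, Equiv.symm_apply_apply]
  refine ⟨fun v => σ.symm (F v), ?_, ?_⟩
  · intro i
    have hs : {v | σ.symm (F v) = i} = p (σ i) := by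
      ext v
      rw [Set.mem_setOf_eq, Equiv.symm_apply_eq, hF]
    rw [hs]
    exact hp _
  · rintro i j (h | h | h)
    · subst h
      exact key _ _ (h1 i).1
    · subst h
      exact key _ _ (h1 j).1.symm
    · subst h
      exact key _ _ (h1 i).2

theorem mod_of {f : V → Fin 3 ⊕ Fin 3} (h : W.M33 G f) :
    Mod G (fun i => W.part f (Sum.inl i)) (fun i => W.part f (Sum.inr i)) where
  cA i := h.1 _
  cB i := h.1 _
  dA i j hij := Set.disjoint_left.2 fun v hv hw =>
    hij (Sum.inl.inj ((show f v = Sum.inl i from hv).symm.trans (show f v = Sum.inl j from hw)))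
  dB i j hij := Set.disjoint_left.2 fun v hv hw =>
    hij (Sum.inr.inj ((show f v = Sum.inr i from hv).symm.trans (show f v = Sum.inr j from hw)))
  dAB i j := Set.disjoint_left.2 fun v hv hw => by
    have := (show f v = Sum.inl i from hv).symm.trans (show f v = Sum.inr j from hw)
    cases this
  cover v := by
    rcases hv : f v with i | i
    · exact Or.inl ⟨i, hv⟩
    · exact Or.inr ⟨i, hv⟩
  touch i j := by
    obtain ⟨u, v, hu, hv, e⟩ := h.2 i j
    exact ⟨u, hu, v, hv, e⟩

theorem two_of {f : V → Fin 3 ⊕ Fin 3} {o : Fin 3 → Fin 3 ⊕ Fin 3} {P : Set V}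
    (h : W.Two P (W.lab G f o)) : Two G P fun i => W.part f (o i) := by
  obtain ⟨i, j, hij, ⟨x, hx, v, hv, e⟩, ⟨y, hy, w, hw, e'⟩⟩ := h
  exact ⟨i, j, hij, ⟨x, hx, v, hv, e⟩, ⟨y, hy, w, hw, e'⟩⟩

theorem split_of {X P : Set V} (hs : P ⊆ X) (h1 : (G.induce P).Connected)
    (h2 : (G.induce (X \ P)).Connected) : Split G X P (X \ P) :=
  ⟨(Set.union_diff_cancel hs).symm, Set.disjoint_sdiff_right, h1, h2⟩

/-- **[W-FAT]** -/
theorem ff : W.FFStmt := by
  intro V G f i j hM hA hB
  obtain ⟨C, hCs, hC, hD, hC2, hD2⟩ := hA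
  obtain ⟨P, hPs, hP, hQ, hP2, hQ2⟩ := hB
  obtain ⟨p, h1, h2, h3, h4⟩ := parts (mod_of hM) (i := i) (j := j) (split_of hCs hC hD)
    (split_of hPs hP hQ) (two_of hC2) (two_of hD2) (two_of hP2) (two_of hQ2)
  rcases h4 with h | h
  · exact Or.inr (has_v8 p h1 h2 h3 h)
  · exact Or.inl (has_k5 p h1 h2 h3 h)

end Vale.Agent.P235.K5.H521
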