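import Vale.Agent.P235.H56.Defs

/-!
# P235 [WAG], row [W-FAT]: two fat splits (helper521)
-/

set_option autoImplicit false

namespace Vale.Agent.P235.K5.H521

open SimpleGraph Vale.Agent.P235.H134

/-- The relation contains the Wagner graph. -/
def HasV8 (T : Fin 8 → Fin 8 → Prop) : Prop :=
  ∃ σ : Equiv.Perm (Fin 8), ∀ i, T (σ i) (σ (i + 1)) ∧ T (σ i) (σ (i + 4))

/-- The relation has `K_5` as a quotient with complete classes. -/
def HasK5 {ι : Type} (T : ι → ι → Prop) : Prop :=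
  ∃ g : ι → Fin 5, (∀ i j, g i = g j → i ≠ j → T i j) ∧
    ∀ c c', c ≠ c' → ∃ i j, g i = c ∧ g j = c' ∧ T i j

/-- The finite core. -/
def CoreStmt : Prop :=
  ∀ T : Fin 8 → Fin 8 → Prop, (∀ i j, T i j → T j i) → T 0 1 → T 4 5 → T 2 6 → T 2 7 → T 3 6 →
    T 3 7 → (T 0 6 ∨ T 1 6) → (T 0 7 ∨ T 1 7) → (T 4 2 ∨ T 5 2) → (T 4 3 ∨ T 5 3) →
    (T 0 4 ∨ T 0 5 ∨ T 1 4 ∨ T 1 5) →
    ((T 0 6 ∧ T 0 7) ∨ ((T 0 4 ∨ T 0 5) ∧ (T 0 6 ∨ T 0 7))) →
    ((T 1 6 ∧ T 1 7) ∨ ((T 1 4 ∨ T 1 5) ∧ (T 1 6 ∨ T 1 7))) →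
    ((T 4 2 ∧ T 4 3) ∨ ((T 4 0 ∨ T 4 1) ∧ (T 4 2 ∨ T 4 3))) →
    ((T 5 2 ∧ T 5 3) ∨ ((T 5 0 ∨ T 5 1) ∧ (T 5 2 ∨ T 5 3))) → HasV8 T ∨ HasK5 T

variable {V : Type} {G : SimpleGraph V}

/-- Some edge joins the two sets. -/
def Touch (G : SimpleGraph V) (X Y : Set V) : Prop := ∃ x ∈ X, ∃ y ∈ Y, G.Adj x y

theorem Touch.symm {X Y : Set V} (h : Touch G X Y) : Touch G Y X := by
  obtain ⟨x, hx, y, hy, e⟩ := h
  exact ⟨y, hy, x, hx, e.symm⟩

theorem touch_union_left {X Y Z : Set V} : Touch G (X ∪ Y) Z ↔ Touch G X Z ∨ Touch G Y Z := by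
  constructor
  · rintro ⟨x, hx | hx, y, hy, e⟩
    · exact Or.inl ⟨x, hx, y, hy, e⟩
    · exact Or.inr ⟨x, hx, y, hy, e⟩
  · rintro (⟨x, hx, y, hy, e⟩ | ⟨x, hx, y, hy, e⟩)
    · exact ⟨x, Or.inl hx, y, hy, e⟩
    · exact ⟨x, Or.inr hx, y, hy, e⟩

theorem touch_union_right {X Y Z : Set V} : Touch G Z (X ∪ Y) ↔ Touch G Z X ∨ Touch G Z Y := by
  constructor
  · rintro ⟨x, hx, y, hy | hy, e⟩
    · exact Or.inl ⟨x, hx, y, hy, e⟩
    · exact Or.inr ⟨x, hx, y, hy, e⟩
  · rintro (⟨x, hx, y, hy, e⟩ | ⟨x, hx, y, hy, e⟩)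
    · exact ⟨x, hx, y, Or.inl hy, e⟩
    · exact ⟨x, hx, y, Or.inr hy, e⟩

/-- The two sides of a partition of a connected set touch. -/
theorem touch_of_connected {X Y : Set V} (h : (G.induce (X ∪ Y)).Connected) (hX : X.Nonempty)
    (hY : Y.Nonempty) (hd : Disjoint X Y) : Touch G X Y := by
  obtain ⟨x, hx⟩ := hX
  obtain ⟨y, hy⟩ := hY
  obtain ⟨p⟩ := h.preconnected ⟨x, Or.inl hx⟩ ⟨y, Or.inr hy⟩
  obtain ⟨d, _, h1, h2⟩ := p.exists_boundary_dart (S := {v | v.1 ∈ X}) hx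
    (fun h => Set.disjoint_left.1 hd h hy)
  refine ⟨d.fst.1, h1, d.snd.1, ?_, d.adj⟩
  rcases d.snd.2 with h3 | h3
  · exact absurd h3 h2
  · exact h3

theorem nonempty_of_connected {X : Set V} (h : (G.induce X).Connected) : X.Nonempty := by
  obtain ⟨x⟩ := h.nonempty
  exact ⟨x.1, x.2⟩

/-- The union of pairwise touching connected sets is connected. -/
theorem connected_class {ι : Type} (p : ι → Set V) (hp : ∀ i, (G.induce (p i)).Connected)
    (s : Set ι) (hs : s.Nonempty) (ht : ∀ i ∈ s, ∀ j ∈ s, i ≠ j → Touch G (p i) (p j)) :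
    (G.induce {v | ∃ i ∈ s, v ∈ p i}).Connected := by
  have hsub : ∀ i ∈ s, p i ≤ {v | ∃ i ∈ s, v ∈ p i} := fun i hi v hv => ⟨i, hi, hv⟩
  have hr : ∀ i (hi : i ∈ s) (x y : V) (hx : x ∈ p i) (hy : y ∈ p i),
      (G.induce {v | ∃ i ∈ s, v ∈ p i}).Reachable ⟨x, hsub i hi hx⟩ ⟨y, hsub i hi hy⟩ := by
    intro i hi x y hx hy
    have := ((hp i).preconnected ⟨x, hx⟩ ⟨y, hy⟩).map (induceHomOfLE G (hsub i hi)).toHom
    exact this
  obtain ⟨i₀, hi₀⟩ := hs
  obtain ⟨x₀, hx₀⟩ := nonempty_of_connected (hp i₀)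
  have : Nonempty {v | ∃ i ∈ s, v ∈ p i} := ⟨⟨x₀, hsub i₀ hi₀ hx₀⟩⟩
  refine ⟨?_⟩
  rintro ⟨x, i, hi, hx⟩ ⟨y, j, hj, hy⟩
  by_cases hij : i = j
  · subst hij
    exact hr i hi x y hx hy
  · obtain ⟨u, hu, v, hv, e⟩ := ht i hi j hj hij
    refine (hr i hi x u hx hu).trans (Reachable.trans ?_ (hr j hj v y hv hy))
    exact Adj.reachable (G := G.induce _) e

/-- The `K_5` constructor. -/
theorem k5_of {ι : Type} (p : ι → Set V) (hp : ∀ i, (G.induce (p i)).Connected)
    (hd : ∀ i j, i ≠ j → Disjoint (p i) (p j)) (h : HasK5 fun i j => Touch G (p i) (p j)) :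
    IsMinor (⊤ : SimpleGraph (Fin 5)) G := by
  obtain ⟨g, h1, h2⟩ := h
  have hne : ∀ c : Fin 5, ∃ i, g i = c := by
    intro c
    have : c ≠ c + 1 := by
      intro h
      revert h
      revert c
      decide
    obtain ⟨i, _, hi, _, _⟩ := h2 c (c + 1) this
    exact ⟨i, hi⟩
  refine ⟨fun c => {v | ∃ i ∈ {i | g i = c}, v ∈ p i}, ?_, ?_, ?_⟩
  · intro c
    refine connected_class p hp {i | g i = c} (hne c) ?_
    intro i hi j hj hij
    exact h1 i j (by rw [show g i = c from hi, show g j = c from hj]) hij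
  · intro c c' hc
    rw [Set.disjoint_left]
    rintro v ⟨i, hi, hv⟩ ⟨j, hj, hv'⟩
    have hij : i ≠ j := by
      rintro rfl
      exact hc ((show g i = c from hi).symm.trans (show g i = c' from hj))
    exact Set.disjoint_left.1 (hd i j hij) hv hv'
  · intro c c' hc
    obtain ⟨i, j, hi, hj, x, hx, y, hy, e⟩ := h2 c c' hc
    exact ⟨x, ⟨i, hi, hx⟩, y, ⟨j, hj, hy⟩, e⟩

/-- A partition into eight connected parts whose quotient contains the Wagner graph. -/
def V8Model (G : SimpleGraph V) : Prop :=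
  ∃ p : Fin 8 → Set V, (∀ i, (G.induce (p i)).Connected) ∧ (∀ i j, i ≠ j → Disjoint (p i) (p j)) ∧
    (∀ v, ∃ i, v ∈ p i) ∧ ∀ i, Touch G (p i) (p (i + 1)) ∧ Touch G (p i) (p (i + 4))

theorem v8_of (p : Fin 8 → Set V) (hp : ∀ i, (G.induce (p i)).Connected)
    (hd : ∀ i j, i ≠ j → Disjoint (p i) (p j)) (hc : ∀ v, ∃ i, v ∈ p i)
    (h : HasV8 fun i j => Touch G (p i) (p j)) : V8Model G := by
  obtain ⟨σ, h1⟩ := h
  refine ⟨fun i => p (σ i), fun i => hp _, fun i j hij => hd _ _ (fun h => hij (σ.injective h)),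
    ?_, h1⟩
  intro v
  obtain ⟨i, hi⟩ := hc v
  exact ⟨σ.symm i, by simpa using hi⟩

/-- A model: a partition into `A_0, A_1, A_2 | B_0, B_1, B_2`. -/
structure Mod (G : SimpleGraph V) (A B : Fin 3 → Set V) : Prop where
  cA : ∀ i, (G.induce (A i)).Connected
  cB : ∀ i, (G.induce (B i)).Connected
  dA : ∀ i j, i ≠ j → Disjoint (A i) (A j)
  dB : ∀ i j, i ≠ j → Disjoint (B i) (B j)
  dAB : ∀ i j, Disjoint (A i) (B j)
  cover : ∀ v, (∃ i, v ∈ A i) ∨ ∃ i, v ∈ B i
  touch : ∀ i j, Touch G (A i) (B j)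

/-- A split of a connected set. -/
structure Split (G : SimpleGraph V) (X P Q : Set V) : Prop where
  eq : X = P ∪ Q
  disj : Disjoint P Q
  cP : (G.induce P).Connected
  cQ : (G.induce Q).Connected

/-- `P` touches two of the three sets. -/
def Two (G : SimpleGraph V) (P : Set V) (B : Fin 3 → Set V) : Prop :=
  ∃ j k, j ≠ k ∧ Touch G P (B j) ∧ Touch G P (B k)

theorem two_cases {P X Y : Set V} {B : Fin 3 → Set V} {j : Fin 3} (hB : B j = X ∪ Y)
    (h : Two G P B) : (Touch G P (B (j + 1)) ∧ Touch G P (B (j + 2))) ∨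
      ((Touch G P X ∨ Touch G P Y) ∧ (Touch G P (B (j + 1)) ∨ Touch G P (B (j + 2)))) := by
  obtain ⟨a, b, hab, ha, hb⟩ := h
  have key : ∀ j k : Fin 3, k = j ∨ k = j + 1 ∨ k = j + 2 := by decide
  rcases key j a with rfl | rfl | rfl
  · rw [hB, touch_union_right] at ha
    rcases key a b with rfl | rfl | rfl
    · exact absurd rfl hab
    · exact Or.inr ⟨ha, Or.inl hb⟩
    · exact Or.inr ⟨ha, Or.inr hb⟩
  · rcases key j b with rfl | rfl | rfl
    · rw [hB, touch_union_right] at hb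
      exact Or.inr ⟨hb, Or.inl ha⟩
    · exact absurd rfl hab
    · exact Or.inl ⟨ha, hb⟩
  · rcases key j b with rfl | rfl | rfl
    · rw [hB, touch_union_right] at hb
      exact Or.inr ⟨hb, Or.inr ha⟩
    · exact Or.inl ⟨hb, ha⟩
    · exact absurd rfl hab

/-- **[W-FAT]** -/
theorem fat_fat (hcore : CoreStmt) {A B : Fin 3 → Set V} (hM : Mod G A B) {i j : Fin 3}
    {C D P Q : Set V} (hA : Split G (A i) C D) (hB : Split G (B j) P Q) (hC : Two G C B)
    (hD : Two G D B) (hP : Two G P A) (hQ : Two G Q A) :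
    IsMinor (⊤ : SimpleGraph (Fin 5)) G ∨ V8Model G := by
  have e1 : ∀ i : Fin 3, i ≠ i + 1 := by decide
  have e2 : ∀ i : Fin 3, i ≠ i + 2 := by decide
  have e3 : ∀ i : Fin 3, i + 1 ≠ i + 2 := by decide
  have sC : C ⊆ A i := by rw [hA.eq]; exact Set.subset_union_left
  have sD : D ⊆ A i := by rw [hA.eq]; exact Set.subset_union_right
  have sP : P ⊆ B j := by rw [hB.eq]; exact Set.subset_union_left
  have sQ : Q ⊆ B j := by rw [hB.eq]; exact Set.subset_union_right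
  have tCD : Touch G C D := touch_of_connected (by rw [← hA.eq]; exact hM.cA i)
    (nonempty_of_connected hA.cP) (nonempty_of_connected hA.cQ) hA.disj
  have tPQ : Touch G P Q := touch_of_connected (by rw [← hB.eq]; exact hM.cB j)
    (nonempty_of_connected hB.cP) (nonempty_of_connected hB.cQ) hB.disj
  let p : Fin 8 → Set V := ![C, D, A (i + 1), A (i + 2), P, Q, B (j + 1), B (j + 2)]
  have hp : ∀ a, (G.induce (p a)).Connected := by
    intro a
    fin_cases a
    · exact hA.cP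
    · exact hA.cQ
    · exact hM.cA _
    · exact hM.cA _
    · exact hB.cP
    · exact hB.cQ
    · exact hM.cB _
    · exact hM.cB _
  have d01 := hA.disj
  have d02 := (hM.dA _ _ (e1 i)).mono_left sC
  have d03 := (hM.dA _ _ (e2 i)).mono_left sC
  have d04 := (hM.dAB i j).mono sC sP
  have d05 := (hM.dAB i j).mono sC sQ
  have d06 := (hM.dAB i (j + 1)).mono_left sC
  have d07 := (hM.dAB i (j + 2)).mono_left sC
  have d12 := (hM.dA _ _ (e1 i)).mono_left sD
  have d13 := (hM.dA _ _ (e2 i)).mono_left sD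
  have d14 := (hM.dAB i j).mono sD sP
  have d15 := (hM.dAB i j).mono sD sQ
  have d16 := (hM.dAB i (j + 1)).mono_left sD
  have d17 := (hM.dAB i (j + 2)).mono_left sD
  have d23 := hM.dA _ _ (e3 i)
  have d24 := (hM.dAB (i + 1) j).mono_right sP
  have d25 := (hM.dAB (i + 1) j).mono_right sQ
  have d34 := (hM.dAB (i + 2) j).mono_right sP
  have d35 := (hM.dAB (i + 2) j).mono_right sQ
  have d45 := hB.disj
  have d46 := (hM.dB _ _ (e1 j)).mono_left sP
  have d47 := (hM.dB _ _ (e2 j)).mono_left sP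
  have d56 := (hM.dB _ _ (e1 j)).mono_left sQ
  have d57 := (hM.dB _ _ (e2 j)).mono_left sQ
  have d67 := hM.dB _ _ (e3 j)
  have hlt : ∀ a b : Fin 8, a < b → Disjoint (p a) (p b) := by
    intro a b hab
    fin_cases a <;> fin_cases b <;> first
      | exact absurd hab (by decide)
      | exact d01
      | exact d02
      | exact d03
      | exact d04
      | exact d05
      | exact d06
      | exact d07
      | exact d12
      | exact d13
      | exact d14
      | exact d15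
      | exact d16
      | exact d17
      | exact d23
      | exact d24
      | exact d25
      | exact hM.dAB _ _
      | exact d34
      | exact d35
      | exact d45
      | exact d46
      | exact d47
      | exact d56
      | exact d57
      | exact d67
  have hd : ∀ a b, a ≠ b → Disjoint (p a) (p b) := by
    intro a b hab
    rcases lt_or_gt_of_ne hab with h | h
    · exact hlt a b h
    · exact (hlt b a h).symm
  have hcov : ∀ v, ∃ a, v ∈ p a := by
    have key : ∀ j k : Fin 3, k = j ∨ k = j + 1 ∨ k = j + 2 := by decide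
    intro v
    rcases hM.cover v with ⟨k, hk⟩ | ⟨k, hk⟩
    · rcases key i k with rfl | rfl | rfl
      · rw [hA.eq] at hk
        rcases hk with hk | hk
        · exact ⟨0, hk⟩
        · exact ⟨1, hk⟩
      · exact ⟨2, hk⟩
      · exact ⟨3, hk⟩
    · rcases key j k with rfl | rfl | rfl
      · rw [hB.eq] at hk
        rcases hk with hk | hk
        · exact ⟨4, hk⟩
        · exact ⟨5, hk⟩
      · exact ⟨6, hk⟩
      · exact ⟨7, hk⟩
  have tA : ∀ k, Touch G C (B k) ∨ Touch G D (B k) := by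
    intro k
    have := hM.touch i k
    rwa [hA.eq, touch_union_left] at this
  have tB : ∀ k, Touch G P (A k) ∨ Touch G Q (A k) := by
    intro k
    have := (hM.touch k j).symm
    rwa [hB.eq, touch_union_left] at this
  have t4 : Touch G C P ∨ Touch G C Q ∨ Touch G D P ∨ Touch G D Q := by
    have := tA j
    rw [hB.eq, touch_union_right, touch_union_right] at this
    tauto
  have h := hcore (fun a b => Touch G (p a) (p b)) (fun a b h => h.symm) tCD tPQ
    (hM.touch _ _) (hM.touch _ _) (hM.touch _ _) (hM.touch _ _) (tA (j + 1)) (tA (j + 2))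
    (tB (i + 1)) (tB (i + 2)) t4 (two_cases hB.eq hC) (two_cases hB.eq hD) (two_cases hA.eq hP)
    (two_cases hA.eq hQ)
  rcases h with h | h
  · exact Or.inr (v8_of p hp hd hcov h)
  · exact Or.inl (k5_of p hp hd h)

end Vale.Agent.P235.K5.H521
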